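import Vale.Agent.P039.Sw.Ladder

namespace Vale.Agent.Results.P039.SquareSwitch

open Vale.Agent.P039 Vale.Agent.P039.Sw

/-- (1) A finite cubic graph is Hamiltonian if and only if it has a perfect matching `M` such that
deleting the edges of `M` that lie on no 4-cycle leaves a connected graph.

Let `G` be a finite cubic bipartite planar 3-connected graph, embedded in the sphere. Then `G` is
Hamiltonian in each of the following cases.

(2) The faces are split into two parts such that every vertex lies on a face of either part, and
the faces of size other than four, two of them joined if they share an edge and lie in the same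
part, form a graph without cycles.

(3) `c` is a proper colouring of the faces with three colours (such colourings exist), and the
graph `stars R c red` has no cycle for some set `red` of faces; or at most two faces of colour `0`
have size other than four and are not simple; or at most eight faces in all have size other than
four and are not simple. (A face is simple if in one of the two other colours it has at most one
neighbour of size other than four, or if it has exactly four neighbours of size other than four
and their two colours alternate around it.)

(4) Each vertex lies on a face of size other than four, and there is a set `N` of edges which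
matches the vertices that lie on no face of size four with each other, covers no other vertex, and
whose deletion leaves a connected graph; in particular, every vertex lies on one or two faces of
size four. -/
theorem result :
    (∀ (V : Type*) [Fintype V] [DecidableEq V] (G : SimpleGraph V),
      (∀ v, (G.neighborSet v).ncard = 3) →
      (G.IsHamiltonian ↔ ∃ M, PerfectMatching G M ∧ (offSquares G M).Connected)) ∧
    (∀ (V : Type*) [Fintype V] [DecidableEq V] (G : SimpleGraph V), IsBarnette G →
      ∀ R : Rotation G, R.Spherical →
      (∀ S : Set R.Face, (∀ v, (∃ f ∈ S, OnFace R v f) ∧ ∃ f ∉ S, OnFace R v f) →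
        (mono R S).IsAcyclic → G.IsHamiltonian) ∧
      (∃ c, Proper R c) ∧
      (∀ c, Proper R c →
        ((∃ red, (stars R c red).IsAcyclic) ∨
          {f | c f = 0 ∧ size R f ≠ 4 ∧ ¬ Simple R c f}.ncard ≤ 2 ∨
          {f | size R f ≠ 4 ∧ ¬ Simple R c f}.ncard ≤ 8) → G.IsHamiltonian) ∧
      ((∀ v, ∃ f, OnFace R v f ∧ size R f ≠ 4) →
        ∀ N : SimpleGraph V, N ≤ G →
        (∀ v, (∀ f, OnFace R v f → size R f ≠ 4) → ∃! w, N.Adj v w) →
        (∀ v w, N.Adj v w → ∀ f, OnFace R v f → size R f ≠ 4) →
        (G \ N).Connected → G.IsHamiltonian)) := by
  refine ⟨fun V _ _ G hc => ham_iff hc, ?_⟩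
  intro V _ _ G hG R hR
  have hE := spherical_card hR
  refine ⟨?_, exists_proper hG R hR, ?_, ?_⟩
  · exact fun S hS hac => ham_of_mono R hG.cubic hG.connected hE S hS hac
  · rintro c hc (⟨red, hred⟩ | h2 | h8)
    · exact ham_of_stars R hG.cubic hG.connected hE hc red hred
    · exact ham_of_two R hG.cubic hG.connected hE hc h2
    · exact ham_of_eight R hG.cubic hG.connected hE hc h8
  · intro hno N hN hN1 hN2 hconn
    obtain ⟨b, hb⟩ := exists_bool_colouring hG.bipartite
    obtain ⟨P⟩ := exists_pot' G hG.cubic R hE (connected_three hG.connected) b hb
    exact ham_of_ladders P hG.cubic hno N hN hN1 hN2 hconn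

end Vale.Agent.Results.P039.SquareSwitch
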